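import Vale.Agent.P181.H241.Star
import Vale.Agent.P181.H280.Main
import Mathlib.RingTheory.MvPolynomial.EulerIdentity

set_option autoImplicit false

/-! Merging of two points: `MergeH` for polynomials. -/

namespace Vale.Agent.P181.H563

open Vale.Agent.P181 Finset MvPolynomial Vale.Agent.P181.H241

section

variable {ι : Type*} [DecidableEq ι] {n : ℕ}

/-- The derivation moving letters from the point `p` to the point `q`. -/
noncomputable def mv (p q : ι) :
    Derivation ℂ (MvPolynomial (ι × Fin n) ℂ) (MvPolynomial (ι × Fin n) ℂ) :=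
  mkDerivation ℂ (fun x : ι × Fin n => if x.1 = p then X (q, x.2) else 0)

lemma mv_of_ne {p q j : ι} (h : j ≠ p) (P : MvPolynomial (Fin n) ℂ) :
    mv p q (rename (Prod.mk j) P) = 0 := by
  induction P using MvPolynomial.induction_on with
  | C a => rw [rename_C]; exact Derivation.map_algebraMap _ a
  | add P Q hP hQ => rw [map_add, map_add, hP, hQ, add_zero]
  | mul_X P i hP =>
    rw [map_mul, Derivation.leibniz, hP, rename_X, mv, mkDerivation_X, if_neg h]
    simp

lemma mv_self (p q : ι) (P : MvPolynomial (Fin n) ℂ) :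
    mv p q (rename (Prod.mk p) P) =
      ∑ k, X (q, k) * rename (Prod.mk p) (pderiv k P) := by
  induction P using MvPolynomial.induction_on with
  | C a => simp [mv]
  | add P Q hP hQ =>
    simp only [map_add, hP, hQ, mul_add, Finset.sum_add_distrib]
  | mul_X P i hP =>
    rw [map_mul, Derivation.leibniz, hP, rename_X]
    have h1 : mv p q (X (p, i) : MvPolynomial (ι × Fin n) ℂ) = X (q, i) := by
      rw [mv, mkDerivation_X, if_pos rfl]
    rw [h1]
    simp only [Derivation.leibniz, map_add, smul_eq_mul, map_mul, rename_X, mul_add,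
      Finset.sum_add_distrib]
    congr 1
    · rw [Finset.sum_eq_single i]
      · rw [pderiv_X_self, map_one, mul_one, mul_comm]
      · intro k _ hk
        rw [pderiv_X_of_ne hk.symm]
        simp
      · intro h; exact absurd (Finset.mem_univ i) h
    · rw [Finset.mul_sum]
      apply Finset.sum_congr rfl
      intro k _
      ring

lemma linS_pow_isHomogeneous {d : ℕ} {P : MvPolynomial (Fin n) ℂ} (h : P ∈ H280.linS n ^ d) :
    P.IsHomogeneous d := by
  induction d generalizing P with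
  | zero =>
    rw [pow_zero, Submodule.mem_one] at h
    obtain ⟨c, rfl⟩ := h
    exact isHomogeneous_C _ _
  | succ d ih =>
    rw [pow_succ] at h
    induction h using Submodule.mul_induction_on' with
    | mem_mul_mem u hu v hv =>
      apply (ih hu).mul
      induction hv using Submodule.span_induction with
      | mem x hx => obtain ⟨i, rfl⟩ := hx; exact isHomogeneous_X _ _
      | zero => exact isHomogeneous_zero _ _ _
      | add x y _ _ hx hy => exact hx.add hy
      | smul a x _ hx => rw [smul_eq_C_mul]; simpa using (isHomogeneous_C _ a).mul hx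
    | add x _ y _ hx hy => exact hx.add hy

lemma euler {d : ℕ} {P : MvPolynomial (Fin n) ℂ} (h : P ∈ H280.linS n ^ d) :
    ∑ k, X k * pderiv k P = (d : ℂ) • P := by
  rw [(linS_pow_isHomogeneous h).sum_X_mul_pderiv]
  rw [Nat.cast_smul_eq_nsmul]

/-- The functional `(1/(a+2)) φ ∘ D`. -/
noncomputable def mvF (φ : MvPolynomial (ι × Fin n) ℂ →ₗ[ℂ] ℂ) (p q : ι) (a : ℕ) :
    MvPolynomial (ι × Fin n) ℂ →ₗ[ℂ] ℂ :=
  ((a : ℂ) + 2)⁻¹ • (φ ∘ₗ (mv p q).toLinearMap)

lemma mvF_apply (φ : MvPolynomial (ι × Fin n) ℂ →ₗ[ℂ] ℂ) (p q : ι) (a : ℕ)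
    (x : MvPolynomial (ι × Fin n) ℂ) : mvF φ p q a x = ((a : ℂ) + 2)⁻¹ * φ (mv p q x) := rfl

/-- The exchange property of the letters at `p` and `q`. -/
def Exch (𝒲 : Set (MvPolynomial (ι × Fin n) ℂ)) (φ : MvPolynomial (ι × Fin n) ℂ →ₗ[ℂ] ℂ)
    (p q : ι) (a b : ℕ) : Prop :=
  ∀ u ∈ H280.linS n, ∀ v ∈ H280.linS n, ∀ P ∈ H280.linS n ^ a, ∀ Q ∈ H280.linS n ^ b, ∀ W ∈ 𝒲,
    φ ((rename (Prod.mk p) u * rename (Prod.mk q) v - rename (Prod.mk p) v *
      rename (Prod.mk q) u) * (rename (Prod.mk p) P * rename (Prod.mk q) Q * W)) = 0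

/-- Moving one letter. -/
lemma Exch.move {𝒲 : Set (MvPolynomial (ι × Fin n) ℂ)} {φ : MvPolynomial (ι × Fin n) ℂ →ₗ[ℂ] ℂ}
    {p q : ι} (hpq : p ≠ q) (hW : ∀ W ∈ 𝒲, mv p q W = 0) {a b : ℕ} (h : Exch 𝒲 φ p q a b)
    {w P Q W : _} (hw : w ∈ H280.linS n) (hP : P ∈ H280.linS n ^ (a + 1))
    (hQ : Q ∈ H280.linS n ^ b) (hW' : W ∈ 𝒲) :
    φ (rename (Prod.mk p) P * rename (Prod.mk q) (w * Q) * W) =
      mvF φ p q a (rename (Prod.mk p) (w * P) * rename (Prod.mk q) Q * W) := by
  have h1 : mv p q (rename (Prod.mk p) (w * P) * rename (Prod.mk q) Q * W) =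
      (∑ k, X (q, k) * rename (Prod.mk p) (pderiv k (w * P))) * (rename (Prod.mk q) Q * W) := by
    rw [mul_assoc, Derivation.leibniz, Derivation.leibniz, hW W hW', mv_of_ne hpq.symm, mv_self]
    simp only [smul_eq_mul, mul_zero, add_zero, zero_add]
    ring
  -- the first derivative terms
  have hE : ∀ k : Fin n, φ ((X (q, k) * rename (Prod.mk p) (w * pderiv k P)) *
      (rename (Prod.mk q) Q * W)) = φ (rename (Prod.mk p) (X k * pderiv k P) *
      (rename (Prod.mk q) w * (rename (Prod.mk q) Q * W))) := by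
    intro k
    have h2 := h w hw (X k) (H280.X_mem_linS k) (pderiv k P) (H280.pderiv_mem_linS k P hP) Q hQ W
      hW'
    rw [← sub_eq_zero, ← map_sub, ← h2]
    congr 1
    simp only [map_mul, rename_X]
    ring
  have hw1 : ∑ k, (X (q, k) : MvPolynomial (ι × Fin n) ℂ) * rename (Prod.mk p) (pderiv k w) =
      rename (Prod.mk q) w := by
    have h3 : ∀ k : Fin n, ∃ c : ℂ, pderiv k w = C c ∧ True := by
      intro k
      have h4 := H280.pderiv_mem_linS (b := 0) k w (by simpa using hw)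
      rw [pow_zero, Submodule.mem_one] at h4
      obtain ⟨c, hc⟩ := h4
      exact ⟨c, hc.symm, trivial⟩
    have h5 := euler (d := 1) (P := w) (by simpa using hw)
    have h6 := congrArg (rename (Prod.mk q) : MvPolynomial (Fin n) ℂ →ₐ[ℂ] _) h5
    rw [map_sum, Nat.cast_one, one_smul] at h6
    rw [← h6]
    apply Finset.sum_congr rfl
    intro k _
    obtain ⟨c, hc, -⟩ := h3 k
    rw [hc, map_mul, rename_X, rename_C, rename_C]
  rw [mvF_apply, h1]
  have h7 : (∑ k, X (q, k) * rename (Prod.mk p) (pderiv k (w * P))) * (rename (Prod.mk q) Q * W) =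
      (∑ k, (X (q, k) * rename (Prod.mk p) (w * pderiv k P)) * (rename (Prod.mk q) Q * W)) +
      (rename (Prod.mk q) w * rename (Prod.mk p) P * (rename (Prod.mk q) Q * W)) := by
    rw [← Finset.sum_mul, ← add_mul]
    congr 1
    rw [← hw1, Finset.sum_mul, ← Finset.sum_add_distrib]
    apply Finset.sum_congr rfl
    intro k _
    rw [Derivation.leibniz, smul_eq_mul, smul_eq_mul, map_add, map_mul, map_mul]
    ring
  rw [h7, map_add, map_sum, Finset.sum_congr rfl (fun k _ => hE k), ← map_sum, ← Finset.sum_mul,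
    ← map_sum, euler hP, map_smul, smul_mul_assoc, map_smul, smul_eq_mul]
  have h8 : ((a : ℂ) + 2) ≠ 0 := by
    have : ((a + 2 : ℕ) : ℂ) ≠ 0 := Nat.cast_ne_zero.2 (by omega)
    simpa using this
  have h9 : rename (Prod.mk q) w * rename (Prod.mk p) P * (rename (Prod.mk q) Q * W) =
      rename (Prod.mk p) P * (rename (Prod.mk q) w * (rename (Prod.mk q) Q * W)) := by ring
  have h10 : rename (Prod.mk p) P * rename (Prod.mk q) (w * Q) * W =
      rename (Prod.mk p) P * (rename (Prod.mk q) w * (rename (Prod.mk q) Q * W)) := by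
    rw [map_mul]; ring
  rw [h9, h10]
  push_cast
  field_simp
  ring

/-- The moved functional again has the exchange property. -/
lemma Exch.exch {𝒲 : Set (MvPolynomial (ι × Fin n) ℂ)} {φ : MvPolynomial (ι × Fin n) ℂ →ₗ[ℂ] ℂ}
    {p q : ι} (hpq : p ≠ q) (hW : ∀ W ∈ 𝒲, mv p q W = 0) {a b : ℕ}
    (h : Exch 𝒲 φ p q a (b + 1)) : Exch 𝒲 (mvF φ p q a) p q (a + 1) b := by
  intro u hu v hv P hP Q hQ W hW'
  have h1 : ∀ x ∈ H280.linS n, ∀ y ∈ H280.linS n,
      mvF φ p q a (rename (Prod.mk p) (x * P) * rename (Prod.mk q) (y * Q) * W) =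
      φ (rename (Prod.mk p) P * rename (Prod.mk q) (x * (y * Q)) * W) := by
    intro x hx y hy
    exact (h.move hpq hW hx hP (by rw [pow_succ']; exact Submodule.mul_mem_mul hy hQ) hW').symm
  have h2 : (rename (Prod.mk p) u * rename (Prod.mk q) v - rename (Prod.mk p) v *
      rename (Prod.mk q) u) * (rename (Prod.mk p) P * rename (Prod.mk q) Q * W) =
      rename (Prod.mk p) (u * P) * rename (Prod.mk q) (v * Q) * W -
      rename (Prod.mk p) (v * P) * rename (Prod.mk q) (u * Q) * W := by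
    simp only [map_mul]
    ring
  have h3 : u * (v * Q) = v * (u * Q) := by ring
  rw [h2, map_sub, h1 u hu v hv, h1 v hv u hu, h3, sub_self]

lemma Exch.merge {𝒲 : Set (MvPolynomial (ι × Fin n) ℂ)} {p q : ι} (hpq : p ≠ q)
    (hW : ∀ W ∈ 𝒲, mv p q W = 0) (b : ℕ) :
    ∀ (a : ℕ) (φ : MvPolynomial (ι × Fin n) ℂ →ₗ[ℂ] ℂ), Exch 𝒲 φ p q a b →
      ∃ γ : MvPolynomial (ι × Fin n) ℂ →ₗ[ℂ] ℂ, ∀ P ∈ H280.linS n ^ (a + 1),
        ∀ Q ∈ H280.linS n ^ (b + 1), ∀ W ∈ 𝒲,
        φ (rename (Prod.mk p) P * rename (Prod.mk q) Q * W) =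
          γ (rename (Prod.mk p) (P * Q) * W) := by
  induction b with
  | zero =>
    intro a φ h
    refine ⟨mvF φ p q a, ?_⟩
    intro P hP Q hQ W hW'
    have h1 : (1 : MvPolynomial (Fin n) ℂ) ∈ H280.linS n ^ 0 := by
      rw [pow_zero]; exact Submodule.mem_one.2 ⟨1, map_one _⟩
    have h2 := h.move hpq hW (w := Q) (by simpa using hQ) hP h1 hW'
    rw [mul_one, map_one, mul_one, mul_comm Q P] at h2
    exact h2
  | succ b ih =>
    intro a φ h
    obtain ⟨γ, hγ⟩ := ih (a + 1) (mvF φ p q a) (h.exch hpq hW)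
    refine ⟨γ, ?_⟩
    intro P hP Q hQ W hW'
    rw [pow_succ'] at hQ
    induction hQ using Submodule.mul_induction_on' with
    | mem_mul_mem w hw Q' hQ' =>
      rw [h.move hpq hW hw hP hQ' hW', hγ (w * P) (by
        rw [pow_succ' _ (a + 1)]; exact Submodule.mul_mem_mul hw hP) Q' hQ' W hW']
      congr 3
      ring
    | add x _ y _ hx hy =>
      rw [map_add, mul_add, add_mul, map_add, hx, hy, mul_add, map_add, add_mul, map_add]

theorem mergeH (n : ℕ) : MergeH (fun j : ι => (MvPolynomial.rename (Prod.mk j) :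
    MvPolynomial (Fin n) ℂ →ₐ[ℂ] MvPolynomial (ι × Fin n) ℂ)) (H280.linS n) := by
  intro p q hpq N hpN c cp cq ω h
  let 𝒲 : Set (MvPolynomial (ι × Fin n) ℂ) := {W | ∃ B : ι → MvPolynomial (Fin n) ℂ,
    (∀ i ∈ N, B i ∈ H280.linS n ^ c i) ∧ W = ∏ i ∈ N, rename (Prod.mk i) (B i)}
  have hW : ∀ W ∈ 𝒲, mv p q W = 0 := by
    rintro W ⟨B, -, rfl⟩
    clear h
    induction N using Finset.induction_on with
    | empty => rw [Finset.prod_empty]; exact (mv p q).map_one_eq_zero
    | insert i N hi ih =>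
      rw [Finset.mem_insert, not_or] at hpN
      rw [Finset.prod_insert hi, Derivation.leibniz, mv_of_ne (Ne.symm hpN.1), ih hpN.2]
      simp
  obtain ⟨γ, hγ⟩ := Exch.merge hpq hW cq cp ω (by
    rintro u hu v hv P hP Q hQ W ⟨B, hB, rfl⟩
    exact h u hu v hv P hP Q hQ B hB)
  exact ⟨γ, fun P hP Q hQ B hB => hγ P hP Q hQ _ ⟨B, hB, rfl⟩⟩

end

end Vale.Agent.P181.H563
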