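import Vale.Agent.P181.H280.Main

set_option autoImplicit false

/-! Block [GC]: an element whose form vanishes on the first `N + 1` letters and on all monomials
with another letter is zero. -/

namespace Vale.Agent.P181.H563

open Vale.Agent.P181 Vale.Agent.P181.H280 MvPolynomial

theorem gc {N n b : ℕ} (hn : N + 1 ≤ n) (l : (Fin (N + 2) → Fin b → (Fin n → ℂ)) →₀ ℂ)
    (hz : ∀ c : Fin (N + 2) → Fin b → Fin n, (∃ i j, N + 1 ≤ (c i j : ℕ)) →
      formOf l (fun i => ∏ j, X (c i j)) = 0)
    (hf : ∀ P : Fin (N + 2) → MvPolynomial (Fin (N + 1)) ℂ, (∀ i, P i ∈ linS (N + 1) ^ b) →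
      formOf l (fun i => rename (Fin.castLE hn) (P i)) = 0) : elOf l = 0 := by
  apply elOf_eq_zero
  intro P hP
  refine multilinear_zero_of_span (formOf l)
    (Set.range (fun c : Fin b → Fin n => ∏ j, (X (c j) : MvPolynomial (Fin n) ℂ))) ?_ P
    (fun i => span_pow_eq _ _ (hP i))
  intro w hw
  choose c hc using hw
  have hw' : w = fun i => ∏ j, X (c i j) := by
    funext i
    exact (hc i).symm
  rw [hw']
  by_cases h : ∃ i j, N + 1 ≤ (c i j : ℕ)
  · exact hz c h
  · push Not at h
    have h1 := hf (fun i => ∏ j, X (⟨(c i j : ℕ), h i j⟩ : Fin (N + 1))) (by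
      intro i
      have h2 : ∀ T : Finset (Fin b),
          ∏ j ∈ T, (X (⟨(c i j : ℕ), h i j⟩ : Fin (N + 1)) : MvPolynomial (Fin (N + 1)) ℂ) ∈
            linS (N + 1) ^ T.card := by
        intro T
        induction T using Finset.induction with
        | empty =>
          rw [Finset.prod_empty, Finset.card_empty, pow_zero]
          exact Submodule.mem_one.2 ⟨1, map_one _⟩
        | insert j T hj ih =>
          rw [Finset.prod_insert hj, Finset.card_insert_of_notMem hj]
          exact mul_mem_linS _ _ ih
      have h3 := h2 Finset.univ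
      rwa [Finset.card_univ, Fintype.card_fin] at h3)
    rw [← h1]
    congr 1
    funext i
    rw [map_prod]
    apply Finset.prod_congr rfl
    intro j _
    rw [rename_X]
    rfl

end Vale.Agent.P181.H563
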