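import Vale.Agent.P181.H414.Cap

set_option autoImplicit false

/-! The end of the proof: from `f ∘ (D_0 D_1) = 0` to `f = 0`. -/

namespace Vale.Agent.P181.H563

open Vale.Agent.P181 Finset MvPolynomial Vale.Agent.P181.H414

section

variable {ι : Type*} {n : ℕ}

/-- The `n`-minor at the points `pt`. -/
noncomputable def dt (pt : Fin n → ι) : MvPolynomial (ι × Fin n) ℂ :=
  Matrix.det (Matrix.of fun s t : Fin n => X (pt t, s))

lemma dt_perm (pt : Fin n → ι) (τ : Equiv.Perm (Fin n)) :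
    dt (pt ∘ τ) = ((Equiv.Perm.sign τ : ℤ) : MvPolynomial (ι × Fin n) ℂ) * dt pt := by
  rw [dt, dt, ← Matrix.det_permute']
  rfl

lemma dt_noninj (pt : Fin n → ι) (h : ¬ Function.Injective pt) : dt pt = 0 := by
  rw [Function.not_injective_iff] at h
  obtain ⟨i, j, hij, hne⟩ := h
  exact Matrix.det_zero_of_column_eq hne (fun s => by simp [hij])

lemma dt_rename {ι' : Type*} (σ : ι → ι') (pt : Fin n → ι) :
    rename (fun p : ι × Fin n => (σ p.1, p.2)) (dt pt) = dt (σ ∘ pt) := by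
  rw [dt, dt, AlgHom.map_det]
  congr 1
  ext1 s t
  simp

lemma pol_dt (k m : Fin n) (pt : Fin n → ι) :
    pol k m (dt pt) = if k = m then dt pt else 0 := by
  rw [dt, der_det_row (pol k m) _ m]
  · have h1 : (Matrix.of fun s t : Fin n => (X (pt t, s) : MvPolynomial (ι × Fin n) ℂ)).updateRow m
        (fun j => pol k m ((Matrix.of fun s t : Fin n =>
          (X (pt t, s) : MvPolynomial (ι × Fin n) ℂ)) m j)) =
        (Matrix.of fun s t : Fin n => (X (pt t, s) : MvPolynomial (ι × Fin n) ℂ)).updateRow m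
          ((Matrix.of fun s t : Fin n => (X (pt t, s) : MvPolynomial (ι × Fin n) ℂ)) k) := by
      congr 1
      funext j
      simp
    rw [h1]
    split_ifs with hkm
    · subst hkm
      rw [Matrix.updateRow_eq_self]
    · apply Matrix.det_zero_of_row_eq (Ne.symm hkm)
      rw [Matrix.updateRow_self, Matrix.updateRow_ne hkm]
  · intro i j hi
    simp [hi]

end

section

variable {n : ℕ}

/-- A minor is `±` the minor omitting the missing point. -/
lemma dt_miss (pt : Fin n → Fin (n + 1)) (hinj : Function.Injective pt) (p : Fin (n + 1))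
    (hp : ∀ t, pt t ≠ p) : ∃ ε : MvPolynomial (Fin (n + 1) × Fin n) ℂ, ε * ε = 1 ∧
      dt pt = ε * dt p.succAbove := by
  have h1 : ∀ t, ∃ y, p.succAbove y = pt t := fun t => Fin.exists_succAbove_eq (hp t)
  choose e he using h1
  have he' : Function.Injective e := by
    intro s t hst
    apply hinj
    rw [← he, ← he, hst]
  let τ : Equiv.Perm (Fin n) := Equiv.ofBijective e (Finite.injective_iff_bijective.1 he')
  have h2 : pt = p.succAbove ∘ τ := by
    funext t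
    exact (he t).symm
  refine ⟨((Equiv.Perm.sign τ : ℤ) : MvPolynomial (Fin (n + 1) × Fin n) ℂ), ?_, ?_⟩
  · rcases Int.units_eq_one_or (Equiv.Perm.sign τ) with h | h <;> rw [h] <;> simp
  · rw [h2, dt_perm]

lemma dt_miss_two (pt pt' : Fin n → Fin (n + 1)) (p : Fin (n + 1)) (h : Function.Injective pt)
    (h' : Function.Injective pt') (hp : ∀ t, pt t ≠ p) (hp' : ∀ t, pt' t ≠ p) :
    ∃ δ : MvPolynomial (Fin (n + 1) × Fin n) ℂ, dt pt' = δ * dt pt := by
  obtain ⟨ε, hε, e⟩ := dt_miss pt h p hp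
  obtain ⟨ε', -, e'⟩ := dt_miss pt' h' p hp'
  refine ⟨ε' * ε, ?_⟩
  rw [e, e']
  have h2 : ε' * ε * (ε * dt p.succAbove) = ε' * (ε * ε) * dt p.succAbove := by ring
  rw [h2, hε, mul_one]

lemma exists_missing (pt : Fin n → Fin (n + 1)) : ∃ p, ∀ t, pt t ≠ p := by
  by_contra hcon
  push Not at hcon
  have := Fintype.card_le_of_surjective pt hcon
  simp at this

/-- Cramer. -/
lemma cramer_dt (k : Fin n) : ∑ p : Fin (n + 1), (-1) ^ (p : ℕ) *
    (X (p, k) : MvPolynomial (Fin (n + 1) × Fin n) ℂ) * dt p.succAbove = 0 := by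
  let A : Matrix (Fin (n + 1)) (Fin (n + 1)) (MvPolynomial (Fin (n + 1) × Fin n) ℂ) :=
    Matrix.of fun s p => Fin.cases (X (p, k)) (fun s' => X (p, s')) s
  have h1 : A.det = 0 := by
    apply Matrix.det_zero_of_row_eq (i := 0) (j := k.succ) (Fin.succ_ne_zero k).symm
    funext p
    simp [A]
  rw [Matrix.det_succ_row_zero] at h1
  rw [← h1]
  apply Finset.sum_congr rfl
  intro p _
  congr 1

end

section

/-- The polynomial ring in the coordinates of `N + 2` points of `ℂ^(N+1)`. -/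
abbrev Rn (N : ℕ) : Type := MvPolynomial (Fin (N + 2) × Fin (N + 1)) ℂ

variable {N : ℕ}


lemma exists_perm_pair {p q : Fin (N + 2)} (h : p ≠ q) :
    ∃ σ : Equiv.Perm (Fin (N + 2)), σ 0 = p ∧ σ 1 = q := by
  have h01 : (0 : Fin (N + 2)) ≠ 1 := by simp
  refine ⟨(Equiv.swap (Equiv.swap 0 p 1) q) * Equiv.swap 0 p, ?_, ?_⟩
  · rw [Equiv.Perm.mul_apply, Equiv.swap_apply_left]
    apply Equiv.swap_apply_of_ne_of_ne _ h
    intro h2
    have h3 : Equiv.swap 0 p 0 = Equiv.swap 0 p 1 := by rw [Equiv.swap_apply_left]; exact h2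
    exact h01 ((Equiv.swap 0 p).injective h3)
  · rw [Equiv.Perm.mul_apply, Equiv.swap_apply_left]

/-- Symmetry under the points. -/
lemma e_sym (f : Rn N →ₗ[ℂ] ℂ)
    (hs : ∀ (σ : Equiv.Perm (Fin (N + 2))) (M : Rn N), f (rename (fun p => (σ p.1, p.2)) M) = f M)
    (pt1 pt2 : Fin (N + 1) → Fin (N + 2)) (σ : Equiv.Perm (Fin (N + 2)))
    (h : ∀ M : Rn N, f (dt pt1 * (dt pt2 * M)) = 0) (M : Rn N) :
    f (dt (σ ∘ pt1) * (dt (σ ∘ pt2) * M)) = 0 := by
  have e1 : ((fun p : Fin (N + 2) × Fin (N + 1) => (σ p.1, p.2)) ∘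
      fun p : Fin (N + 2) × Fin (N + 1) => (σ.symm p.1, p.2)) = id := by
    funext p
    simp
  have e2 : rename (fun p : Fin (N + 2) × Fin (N + 1) => (σ p.1, p.2))
      (dt pt1 * (dt pt2 * rename (fun p : Fin (N + 2) × Fin (N + 1) => (σ.symm p.1, p.2)) M)) =
      dt (σ ∘ pt1) * (dt (σ ∘ pt2) * M) := by
    rw [map_mul, map_mul, dt_rename, dt_rename, rename_rename, e1, rename_id_apply]
  rw [← e2, hs]
  exact h _

lemma e_miss (f : Rn N →ₗ[ℂ] ℂ) (pt1 pt2 : Fin (N + 1) → Fin (N + 2))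
    (pt1' pt2' : Fin (N + 1) → Fin (N + 2))
    (p q : Fin (N + 2)) (i1 : Function.Injective pt1) (i2 : Function.Injective pt2)
    (i1' : Function.Injective pt1') (i2' : Function.Injective pt2')
    (m1 : ∀ t, pt1 t ≠ p) (m2 : ∀ t, pt2 t ≠ q) (m1' : ∀ t, pt1' t ≠ p) (m2' : ∀ t, pt2' t ≠ q)
    (h : ∀ M : Rn N, f (dt pt1 * (dt pt2 * M)) = 0) (M : Rn N) : f (dt pt1' * (dt pt2' * M)) = 0 := by
  obtain ⟨δ1, e1⟩ := dt_miss_two pt1 pt1' p i1 i1' m1 m1'
  obtain ⟨δ2, e2⟩ := dt_miss_two pt2 pt2' q i2 i2' m2 m2'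
  have e3 : dt pt1' * (dt pt2' * M) = dt pt1 * (dt pt2 * (δ1 * δ2 * M)) := by
    rw [e1, e2]; ring
  rw [e3]
  exact h _

lemma comp_sA_ne (σ : Equiv.Perm (Fin (N + 2))) (p : Fin (N + 2)) (t : Fin (N + 1)) :
    (σ ∘ Fin.succAbove p) t ≠ σ p := fun h => Fin.succAbove_ne _ _ (σ.injective h)

lemma e_ne (f : Rn N →ₗ[ℂ] ℂ)
    (hs : ∀ (σ : Equiv.Perm (Fin (N + 2))) (M : Rn N), f (rename (fun p => (σ p.1, p.2)) M) = f M)
    (hD' : ∀ M : Rn N, f (dt (Fin.succAbove 0) * (dt (Fin.succAbove 1) * M)) = 0)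
    (pt1 pt2 : Fin (N + 1) → Fin (N + 2)) (p q : Fin (N + 2)) (hpq : p ≠ q)
    (i1 : Function.Injective pt1) (i2 : Function.Injective pt2)
    (m1 : ∀ t, pt1 t ≠ p) (m2 : ∀ t, pt2 t ≠ q) (M : Rn N) : f (dt pt1 * (dt pt2 * M)) = 0 := by
  obtain ⟨σ, hσ0, hσ1⟩ := exists_perm_pair hpq
  refine e_miss f (σ ∘ Fin.succAbove 0) (σ ∘ Fin.succAbove 1) pt1 pt2 p q
    (σ.injective.comp Fin.succAbove_right_injective)
    (σ.injective.comp Fin.succAbove_right_injective) i1 i2 ?_ ?_ m1 m2 (e_sym f hs _ _ σ hD') M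
  · intro t
    rw [← hσ0]
    exact comp_sA_ne _ _ _
  · intro t
    rw [← hσ1]
    exact comp_sA_ne _ _ _

lemma ring_aux {A κ : Type*} [CommRing A] [Fintype κ] (a x M : A) (c E : κ → A)
    (h : x * a = -∑ i, c i * E i) : a * (a * (x * M)) = - ∑ i, a * (E i * (c i * M)) := by
  have h4 : a * (a * (x * M)) = a * ((x * a) * M) := by ring
  rw [h4, h, neg_mul, mul_neg, Finset.sum_mul, Finset.mul_sum]
  congr 1
  apply Finset.sum_congr rfl
  intro i _
  ring

lemma e_cr (f : Rn N →ₗ[ℂ] ℂ)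
    (hne : ∀ j : Fin (N + 1), ∀ M : Rn N,
      f (dt (Fin.succAbove 0) * (dt (Fin.succAbove j.succ) * M)) = 0)
    (k : Fin (N + 1)) (M : Rn N) :
    f (dt (Fin.succAbove 0) * (dt (Fin.succAbove 0) * (X (0, k) * M))) = 0 := by
  have h1 : (X (0, k) : Rn N) * dt (Fin.succAbove 0) =
      - ∑ i : Fin (N + 1), (-1) ^ (i.succ : ℕ) * X (i.succ, k) * dt (Fin.succAbove i.succ) := by
    have h2 := cramer_dt (n := N + 1) k
    rw [Fin.sum_univ_succ] at h2
    rw [eq_neg_iff_add_eq_zero, ← h2]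
    simp
  rw [ring_aux _ _ M _ _ h1, map_neg, map_sum, neg_eq_zero]
  exact Finset.sum_eq_zero (fun i _ => hne i _)

lemma e_supp (f : Rn N →ₗ[ℂ] ℂ)
    (hdeg : ∀ d : (Fin (N + 2) × Fin (N + 1)) →₀ ℕ, (¬ ∀ i, ∑ k, d (i, k) = 2 * (N + 2)) →
      f (monomial d 1) = 0)
    (P : Rn N) (hP : P ∈ supported ℂ {x : Fin (N + 2) × Fin (N + 1) | x.1 ≠ 0}) : f P = 0 := by
  classical
  rw [mem_supported] at hP
  rw [P.as_sum, map_sum]
  apply Finset.sum_eq_zero
  intro d hd
  have h2 : monomial d (P.coeff d) = (P.coeff d) • (monomial d 1 : Rn N) := by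
    rw [smul_monomial, smul_eq_mul, mul_one]
  rw [h2, map_smul, hdeg d, smul_zero]
  intro h3
  have h4 : ∑ k, d (0, k) = 0 := by
    apply Finset.sum_eq_zero
    intro k _
    by_contra h5
    have h6 : (0, k) ∈ P.vars := by
      rw [mem_vars_iff_mem_support]
      exact ⟨d, hd, Finsupp.mem_support_iff.2 h5⟩
    exact hP h6 rfl
  have h5 := h3 0
  omega

lemma dt_zero_supported : dt (Fin.succAbove (0 : Fin (N + 2))) ∈
    supported ℂ {x : Fin (N + 2) × Fin (N + 1) | x.1 ≠ 0} := by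
  rw [dt, Matrix.det_apply]
  apply Subalgebra.sum_mem
  intro σ _
  rw [Units.smul_def]
  apply Subalgebra.zsmul_mem
  apply Subalgebra.prod_mem
  intro i _
  exact X_mem_supported.2 (show (Fin.succAbove (0 : Fin (N + 2)) i) ≠ 0 from Fin.succAbove_ne _ _)

lemma e_zz (f : Rn N →ₗ[ℂ] ℂ)
    (hdeg : ∀ d : (Fin (N + 2) × Fin (N + 1)) →₀ ℕ, (¬ ∀ i, ∑ k, d (i, k) = 2 * (N + 2)) →
      f (monomial d 1) = 0)
    (hcr : ∀ (k : Fin (N + 1)) (M : Rn N),
      f (dt (Fin.succAbove 0) * (dt (Fin.succAbove 0) * (X (0, k) * M))) = 0) (M : Rn N) :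
    f (dt (Fin.succAbove 0) * (dt (Fin.succAbove 0) * M)) = 0 := by
  classical
  induction M using MvPolynomial.induction_on' with
  | add P Q hP hQ => rw [mul_add, mul_add, map_add, hP, hQ, add_zero]
  | monomial d c =>
    by_cases hd : ∃ k, d (0, k) ≠ 0
    · obtain ⟨k, hk⟩ := hd
      have h2 : (monomial d c : Rn N) = X (0, k) * monomial (d - Finsupp.single (0, k) 1) c := by
        rw [X, monomial_mul, one_mul, add_tsub_cancel_of_le
          (Finsupp.single_le_iff.2 (Nat.one_le_iff_ne_zero.2 hk))]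
      rw [h2]
      exact hcr k _
    · push Not at hd
      apply e_supp f hdeg
      apply Subalgebra.mul_mem _ dt_zero_supported
      apply Subalgebra.mul_mem _ dt_zero_supported
      rw [mem_supported]
      intro x hx
      rw [Finset.mem_coe, mem_vars_iff_mem_support] at hx
      obtain ⟨d', hd', hx'⟩ := hx
      have h3 : d' = d := by
        by_contra h4
        rw [mem_support_iff, coeff_monomial, if_neg (Ne.symm h4)] at hd'
        exact hd' rfl
      subst h3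
      intro h4
      obtain ⟨x1, x2⟩ := x
      simp only at h4
      subst h4
      exact Finsupp.mem_support_iff.1 hx' (hd x2)

lemma e_all (f : Rn N →ₗ[ℂ] ℂ)
    (hs : ∀ (σ : Equiv.Perm (Fin (N + 2))) (M : Rn N), f (rename (fun p => (σ p.1, p.2)) M) = f M)
    (hne : ∀ (pt1 pt2 : Fin (N + 1) → Fin (N + 2)) (p q : Fin (N + 2)), p ≠ q →
      Function.Injective pt1 → Function.Injective pt2 →
      (∀ t, pt1 t ≠ p) → (∀ t, pt2 t ≠ q) → ∀ M : Rn N, f (dt pt1 * (dt pt2 * M)) = 0)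
    (hzz : ∀ M : Rn N, f (dt (Fin.succAbove 0) * (dt (Fin.succAbove 0) * M)) = 0)
    (pt1 pt2 : Fin (N + 1) → Fin (N + 2)) (M : Rn N) :
      f (dt pt1 * (dt pt2 * M)) = 0 := by
  by_cases i1 : Function.Injective pt1
  · by_cases i2 : Function.Injective pt2
    · obtain ⟨p, hp⟩ := exists_missing pt1
      obtain ⟨q, hq⟩ := exists_missing pt2
      by_cases hpq : p = q
      · subst hpq
        have h3 : ∀ t, (Equiv.swap 0 p ∘ Fin.succAbove 0) t ≠ p := by
          intro t h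
          have h2 : Equiv.swap 0 p 0 = p := Equiv.swap_apply_left _ _
          exact comp_sA_ne (Equiv.swap 0 p) 0 t (h.trans h2.symm)
        exact e_miss f (Equiv.swap 0 p ∘ Fin.succAbove 0) (Equiv.swap 0 p ∘ Fin.succAbove 0)
          pt1 pt2 p p ((Equiv.swap 0 p).injective.comp Fin.succAbove_right_injective)
          ((Equiv.swap 0 p).injective.comp Fin.succAbove_right_injective) i1 i2 h3 h3 hp hq
          (e_sym f hs _ _ _ hzz) M
      · exact hne pt1 pt2 p q hpq i1 i2 hp hq M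
    · rw [dt_noninj pt2 i2, zero_mul, mul_zero, map_zero]
  · rw [dt_noninj pt1 i1, zero_mul, map_zero]

lemma e_one (f : Rn N →ₗ[ℂ] ℂ) (mu : Fin (N + 1) → ℕ) (hmu : ∀ k, 2 ≤ mu k)
    (h0 : ∀ m k : Fin (N + 1), m < k → ∀ M, f (pol k m M) = 0)
    (h1 : ∀ (m : Fin (N + 1)) (M : Rn N), f (pol m m M) = (mu m : ℂ) * f M)
    (pt1 : Fin (N + 1) → Fin (N + 2))
    (hall : ∀ (pt2 : Fin (N + 1) → Fin (N + 2)) (M : Rn N), f (dt pt1 * (dt pt2 * M)) = 0) :
    f ∘ₗ LinearMap.mulLeft ℂ (dt pt1) = 0 := by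
  apply capRect _ (fun m => (mu m : ℂ) - 1)
  · intro m k hmk M
    have h2 : dt pt1 * pol k m M = pol k m (dt pt1 * M) - pol k m (dt pt1) * M := by
      rw [Derivation.leibniz, smul_eq_mul, smul_eq_mul]; ring
    rw [LinearMap.comp_apply, LinearMap.mulLeft_apply, h2, map_sub, h0 m k hmk, pol_dt,
      if_neg hmk.ne', zero_mul, map_zero, sub_zero]
  · intro m M
    have h2 : dt pt1 * pol m m M = pol m m (dt pt1 * M) - pol m m (dt pt1) * M := by
      rw [Derivation.leibniz, smul_eq_mul, smul_eq_mul]; ring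
    rw [LinearMap.comp_apply, LinearMap.comp_apply, LinearMap.mulLeft_apply,
      LinearMap.mulLeft_apply, h2, map_sub, h1, pol_dt, if_pos rfl]
    ring
  · intro m
    have h2 := hmu m
    obtain ⟨c, hc⟩ := Nat.exists_eq_add_of_le h2
    have h3 : ((mu m : ℂ) - 1 + ((N + 1 - 1 - m : ℕ) : ℂ)) =
        ((1 + c + (N + 1 - 1 - m) : ℕ) : ℂ) := by
      rw [hc]; push_cast; ring
    rw [h3]
    exact Nat.cast_ne_zero.2 (by omega)
  · intro pt2 M
    exact hall pt2 M

/-- **[END]** A symmetric highest weight functional of weight `mu ≥ 2` on `N + 1` letters and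
`N + 2` points, with row degrees `2 (N + 2)`, that kills all multiples of `D_0 D_1`, is zero. -/
theorem endd (f : Rn N →ₗ[ℂ] ℂ) (mu : Fin (N + 1) → ℕ)
    (hs : ∀ (σ : Equiv.Perm (Fin (N + 2))) (M : Rn N), f (rename (fun p => (σ p.1, p.2)) M) = f M)
    (hdeg : ∀ d : (Fin (N + 2) × Fin (N + 1)) →₀ ℕ, (¬ ∀ i, ∑ k, d (i, k) = 2 * (N + 2)) →
      f (monomial d 1) = 0)
    (hmu : ∀ k, 2 ≤ mu k)
    (h0 : ∀ m k : Fin (N + 1), m < k → ∀ M, f (pol k m M) = 0)
    (h1 : ∀ (m : Fin (N + 1)) (M : Rn N), f (pol m m M) = (mu m : ℂ) * f M)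
    (hD : ∀ M : Rn N, f (Matrix.det (Matrix.of fun s t : Fin (N + 1) => X (t.succ, s)) *
      (Matrix.det (Matrix.of fun s t : Fin (N + 1) => X ((1 : Fin (N + 2)).succAbove t, s)) *
        M)) = 0) : f = 0 := by
  have hD' : ∀ M : Rn N, f (dt (Fin.succAbove 0) * (dt (Fin.succAbove 1) * M)) = 0 := hD
  have hne := e_ne f hs hD'
  have hcr := e_cr f (fun j M => hne _ _ 0 j.succ (Fin.succ_ne_zero j).symm
    Fin.succAbove_right_injective Fin.succAbove_right_injective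
    (fun t => Fin.succAbove_ne _ _) (fun t => Fin.succAbove_ne _ _) M)
  have hzz := e_zz f hdeg hcr
  have hall := e_all f hs hne hzz
  apply capRect f (fun m => (mu m : ℂ)) h0 h1
  · intro m
    have h2 := hmu m
    have h3 : ((mu m : ℂ) + ((N + 1 - 1 - m : ℕ) : ℂ)) =
        ((mu m + (N + 1 - 1 - m) : ℕ) : ℂ) := by push_cast; ring
    rw [h3]
    exact Nat.cast_ne_zero.2 (by omega)
  · intro pt M
    exact LinearMap.congr_fun (e_one f mu hmu h0 h1 pt (hall pt)) M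

end

end Vale.Agent.P181.H563
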