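import Vale.Agent.P181.H280.Core
import Vale.Agent.P181.H280.Form

set_option autoImplicit false

namespace Vale.Agent.P181.H563

open Vale.Agent.P181 Finset MvPolynomial

/-- The product over the slots `(i, k)` of the contents, placed at the point `i`. -/
noncomputable def slotForm {ι σ : Type} [Fintype ι] [DecidableEq ι]
    (f : MvPolynomial (ι × σ) ℂ →ₗ[ℂ] ℂ) (q : ℕ) :
    MultilinearMap ℂ (fun _ : ι × Fin q => MvPolynomial σ ℂ) ℂ :=
  f.compMultilinearMap ((MultilinearMap.mkPiAlgebra ℂ (ι × Fin q)
    (MvPolynomial (ι × σ) ℂ)).compLinearMap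
      (fun p => (rename (Prod.mk p.1) : MvPolynomial σ ℂ →ₐ[ℂ] _).toLinearMap))

lemma slotForm_apply {ι σ : Type} [Fintype ι] [DecidableEq ι]
    (f : MvPolynomial (ι × σ) ℂ →ₗ[ℂ] ℂ) (q : ℕ) (y : ι × Fin q → MvPolynomial σ ℂ) :
    slotForm f q y = f (∏ p, rename (Prod.mk p.1) (y p)) := rfl

/-- **[ONE]** (first order part of the alternating placement of `n` letters on `n + 1` points). A
symmetric functional that kills `∏ i, (F * F)` at the point `i`, for all `F` of degree `n + 1`,
kills `det · F²(0) · ∏ j, (B j F)(j + 1)`. -/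
theorem one {n : ℕ} (f : MvPolynomial (Fin (n + 1) × Fin n) ℂ →ₗ[ℂ] ℂ)
    (hs : ∀ (σ : Equiv.Perm (Fin (n + 1))) (M : MvPolynomial (Fin (n + 1) × Fin n) ℂ),
      f (rename (Prod.map σ id) M) = f M)
    (hd : ∀ F ∈ H280.linS n ^ (n + 1), f (∏ i, rename (Prod.mk i) (F * F)) = 0)
    (F : MvPolynomial (Fin n) ℂ) (hF : F ∈ H280.linS n ^ (n + 1))
    (B : Fin n → MvPolynomial (Fin n) ℂ) (hB : ∀ j, B j ∈ H280.linS n ^ n) :
    f (Matrix.det (Matrix.of fun s t : Fin n => X (t.succ, s)) *
      (rename (Prod.mk 0) (F * F) * ∏ j : Fin n, rename (Prod.mk j.succ) (B j * F))) = 0 := by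
  classical
  by_cases hF0 : F = 0
  · subst hF0; simp
  set E : MvPolynomial (Fin (n + 1) × Fin n) ℂ :=
    Matrix.det (Matrix.of fun s t : Fin n => X (t.succ, s)) *
      (rename (Prod.mk 0) (F * F) * ∏ j : Fin n, rename (Prod.mk j.succ) (B j * F)) with hE
  let y : Equiv.Perm (Fin n) → Fin (n + 1) × Fin 2 → MvPolynomial (Fin n) ℂ := fun τ p =>
    if p.2 = 0 then Fin.cases F (fun j => X (τ j) * B j) p.1 else F
  have hy : ∀ τ p, y τ p ∈ H280.linS n ^ (n + 1) := by
    intro τ p
    obtain ⟨i, k⟩ := p
    simp only [y]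
    split_ifs
    · refine Fin.cases ?_ (fun j => ?_) i
      · exact hF
      · simp only [Fin.cases_succ]
        rw [pow_succ']
        exact Submodule.mul_mem_mul (Submodule.subset_span ⟨_, rfl⟩) (hB j)
    · exact hF
  have hpol : ∀ τ, ∑ π : Equiv.Perm (Fin (n + 1) × Fin 2),
      f (∏ p, rename (Prod.mk p.1) (y τ (π p))) = 0 := by
    intro τ
    have h1 := H280.polar (slotForm f 2) (H280.linS n ^ (n + 1)) (by
      intro G hG
      rw [slotForm_apply, ← hd G hG, Fintype.prod_prod_type]
      congr 1
      apply Finset.prod_congr rfl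
      intro i _
      rw [Fin.prod_univ_two, map_mul]) (y τ) (hy τ)
    exact h1
  -- the points carrying the entries
  have hrow : ∀ τ (π : Equiv.Perm (Fin (n + 1) × Fin 2)),
      ∏ p, rename (Prod.mk p.1) (y τ (π p)) =
      (∏ j : Fin n, X ((π.symm (j.succ, 0)).1, τ j)) *
        ((∏ j : Fin n, rename (Prod.mk (π.symm (j.succ, 0)).1) (B j)) *
          (rename (Prod.mk (π.symm (0, 0)).1) F *
            ∏ i, rename (Prod.mk (π.symm (i, 1)).1) F)) := by
    intro τ π
    rw [← Equiv.prod_comp π.symm]
    simp only [Equiv.apply_symm_apply]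
    rw [Fintype.prod_prod_type_right, Fin.prod_univ_two, Fin.prod_univ_succ]
    simp only [y, if_true, Fin.cases_zero, Fin.cases_succ, map_mul, rename_X, one_ne_zero,
      if_false]
    rw [Finset.prod_mul_distrib]
    ring
  -- alternate the letters
  have hmain : ∀ π : Equiv.Perm (Fin (n + 1) × Fin 2),
      ∑ τ : Equiv.Perm (Fin n), ((Equiv.Perm.sign τ : ℤ) : ℂ) *
        f (∏ p, rename (Prod.mk p.1) (y τ (π p))) =
      if Function.Injective (fun j : Fin n => (π.symm (j.succ, 0)).1) then f E else 0 := by
    intro π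
    set r : Fin n → Fin (n + 1) := fun j => (π.symm (j.succ, 0)).1 with hr
    have hdet : ∑ τ : Equiv.Perm (Fin n), ((Equiv.Perm.sign τ : ℤ) : ℂ) *
        f (∏ p, rename (Prod.mk p.1) (y τ (π p))) =
        f (Matrix.det (Matrix.of fun s t : Fin n =>
            (X (r t, s) : MvPolynomial (Fin (n + 1) × Fin n) ℂ)) *
          ((∏ j : Fin n, rename (Prod.mk (r j)) (B j)) *
          (rename (Prod.mk (π.symm (0, 0)).1) F *
            ∏ i, rename (Prod.mk (π.symm (i, 1)).1) F))) := by
      rw [Matrix.det_apply', Finset.sum_mul, map_sum]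
      apply Finset.sum_congr rfl
      intro τ _
      rw [hrow τ π]
      simp only [Matrix.of_apply]
      rw [mul_assoc, ← smul_eq_mul, ← map_smul, Algebra.smul_def]
      congr 2
    rw [hdet]
    by_cases hinj : Function.Injective r
    · rw [if_pos hinj]
      -- extend `r` to a permutation of the points
      obtain ⟨i0, hi0⟩ : ∃ i0, ∀ j, r j ≠ i0 := by
        by_contra hcon
        push Not at hcon
        have := Fintype.card_le_of_surjective r hcon
        simp at this
      let σf : Fin (n + 1) → Fin (n + 1) := Fin.cases i0 r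
      have hσinj : Function.Injective σf := by
        intro u v
        refine Fin.cases ?_ (fun u' => ?_) u <;> refine Fin.cases ?_ (fun v' => ?_) v
        · intro _; rfl
        · intro h; exact absurd h.symm (hi0 v')
        · intro h; exact absurd h (hi0 u')
        · intro h; exact congrArg Fin.succ (hinj h)
      let σ : Equiv.Perm (Fin (n + 1)) :=
        Equiv.ofBijective σf (Finite.injective_iff_bijective.1 hσinj)
      have hσ0 : σ 0 = i0 := rfl
      have hσs : ∀ j : Fin n, σ j.succ = r j := fun j => rfl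
      -- bookkeeping of the factors `F`
      have hne : ∀ i : Fin (n + 1),
          (rename (Prod.mk i) F : MvPolynomial (Fin (n + 1) × Fin n) ℂ) ≠ 0 := by
        intro i h
        exact hF0 (rename_injective _ (Prod.mk_right_injective i) (by rw [h, map_zero]))
      have hF2 : rename (Prod.mk (π.symm (0, 0)).1) F *
            ∏ i, rename (Prod.mk (π.symm (i, 1)).1) F =
          rename (Prod.mk (σ 0)) (F * F) * ∏ j : Fin n,
            (rename (Prod.mk (r j)) F : MvPolynomial (Fin (n + 1) × Fin n) ℂ) := by
        have h1 : ∏ p : Fin (n + 1) × Fin 2,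
            (rename (Prod.mk (π.symm p).1) F : MvPolynomial (Fin (n + 1) × Fin n) ℂ) =
            ∏ p : Fin (n + 1) × Fin 2, rename (Prod.mk p.1) F :=
          Equiv.prod_comp π.symm (fun p => rename (Prod.mk p.1) F)
        have h2 : ∏ p : Fin (n + 1) × Fin 2,
            (rename (Prod.mk p.1) F : MvPolynomial (Fin (n + 1) × Fin n) ℂ) =
            (∏ i, rename (Prod.mk i) F) * ∏ i, rename (Prod.mk i) F := by
          rw [Fintype.prod_prod_type_right, Fin.prod_univ_two]
        have h3 : ∏ i, (rename (Prod.mk i) F : MvPolynomial (Fin (n + 1) × Fin n) ℂ) =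
            rename (Prod.mk (σ 0)) F * ∏ j, rename (Prod.mk (r j)) F := by
          rw [← Equiv.prod_comp σ, Fin.prod_univ_succ]
          simp only [hσs]
        rw [h2, h3, Fintype.prod_prod_type_right, Fin.prod_univ_two, Fin.prod_univ_succ] at h1
        have h4 : ∏ j : Fin n,
            (rename (Prod.mk (r j)) F : MvPolynomial (Fin (n + 1) × Fin n) ℂ) ≠ 0 :=
          Finset.prod_ne_zero_iff.2 (fun j _ => hne _)
        apply mul_left_cancel₀ h4
        rw [map_mul]
        linear_combination h1
      have hE' : rename (Prod.map (⇑σ) id) E =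
          Matrix.det (Matrix.of fun s t : Fin n =>
            (X (r t, s) : MvPolynomial (Fin (n + 1) × Fin n) ℂ)) *
          (rename (Prod.mk (σ 0)) (F * F) * ∏ j : Fin n, rename (Prod.mk (r j)) (B j * F)) := by
        rw [hE, map_mul, AlgHom.map_det]
        congr 1
        · congr 1
          ext1 s t
          simp [hσs]
        · rw [map_mul, map_prod, rename_rename]
          congr 1
          apply Finset.prod_congr rfl
          intro j _
          rw [rename_rename]
          rfl
      rw [← hs σ E, hE', hF2]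
      congr 2
      simp only [map_mul]
      rw [Finset.prod_mul_distrib]
      ring
    · rw [if_neg hinj]
      rw [Function.not_injective_iff] at hinj
      obtain ⟨j, j', hjj, hne⟩ := hinj
      rw [Matrix.det_zero_of_column_eq hne (by intro s; simp [hjj]), zero_mul, map_zero]
  have hsum : ∑ π : Equiv.Perm (Fin (n + 1) × Fin 2),
      (if Function.Injective (fun j : Fin n => (π.symm (j.succ, 0)).1) then f E else 0) = 0 := by
    rw [← Finset.sum_congr rfl (fun π _ => hmain π), Finset.sum_comm]
    apply Finset.sum_eq_zero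
    intro τ _
    rw [← Finset.mul_sum, hpol, mul_zero]
  rw [← Finset.sum_filter, Finset.sum_const, nsmul_eq_mul] at hsum
  refine (mul_eq_zero.1 hsum).resolve_left ?_
  intro h0
  rw [Nat.cast_eq_zero, Finset.card_eq_zero, Finset.filter_eq_empty_iff] at h0
  exact h0 (Finset.mem_univ 1) (fun j j' h => Fin.succ_injective _ h)

end Vale.Agent.P181.H563
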